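import Mathlib

/-!
Every graph on `m` vertices in which each vertex has at most `d` non-neighbours, with
`121 d^3 ≤ m^2`, has a complete minor on `⌈m/2⌉` branch sets.

Branch sets are edges whose end points have few common non-neighbours, plus one single vertex when
`m` is odd.  Two edges are not joined only when their four end points form a complete bipartite
pattern in the complement.  A maximal family without such a pattern is perfect, by a Dirac type
swap and a count of the forbidden partners of an uncovered vertex.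
-/

open Finset

namespace Vale.Agent.Results.P060.A_dense_minor

variable {V : Type*} [Fintype V] [DecidableEq V]

/-- `x`, `y` are distinct and non-adjacent in `G`. -/
def H (G : SimpleGraph V) (x y : V) : Prop := x ≠ y ∧ ¬ G.Adj x y

theorem H_symm {G : SimpleGraph V} {x y : V} (h : H G x y) : H G y x :=
  ⟨h.1.symm, fun a => h.2 a.symm⟩

open Classical in
/-- The non-neighbours of `v`. -/
noncomputable def N (G : SimpleGraph V) (v : V) : Finset V := univ.filter (fun w => H G v w)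

theorem mem_N {G : SimpleGraph V} {v w : V} : w ∈ N G v ↔ H G v w := by simp [N]

/-- Number of common non-neighbours. -/
noncomputable def cod (G : SimpleGraph V) (a b : V) : ℕ := (N G a ∩ N G b).card

/-- Edges allowed as branch sets. -/
def Allowed (G : SimpleGraph V) (k : ℕ) (a b : V) : Prop := G.Adj a b ∧ cod G a b ≤ k

/-- No edge of `G` between the two pairs. -/
def Conf (G : SimpleGraph V) (e e' : V × V) : Prop :=
  H G e.1 e'.1 ∧ H G e.1 e'.2 ∧ H G e.2 e'.1 ∧ H G e.2 e'.2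

/-- The two pairs are disjoint. -/
def Dis (e e' : V × V) : Prop := e.1 ≠ e'.1 ∧ e.1 ≠ e'.2 ∧ e.2 ≠ e'.1 ∧ e.2 ≠ e'.2

theorem Conf_symm {G : SimpleGraph V} {e e' : V × V} (h : Conf G e e') : Conf G e' e :=
  ⟨H_symm h.1, H_symm h.2.2.1, H_symm h.2.1, H_symm h.2.2.2⟩

theorem Dis_symm {e e' : V × V} (h : Dis e e') : Dis e' e :=
  ⟨h.1.symm, h.2.2.1.symm, h.2.1.symm, h.2.2.2.symm⟩

/-- A family of pairwise joined disjoint allowed edges, compatible with the single vertices `Z`. -/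
structure Good (G : SimpleGraph V) (k : ℕ) (Z : Finset V) (M : Finset (V × V)) : Prop where
  allowed : ∀ e ∈ M, Allowed G k e.1 e.2
  dis : ∀ e ∈ M, ∀ e' ∈ M, e ≠ e' → Dis e e'
  noconf : ∀ e ∈ M, ∀ e' ∈ M, e ≠ e' → ¬ Conf G e e'
  avoid : ∀ e ∈ M, e.1 ∉ Z ∧ e.2 ∉ Z
  zcond : ∀ e ∈ M, ∀ z ∈ Z, ¬ (H G z e.1 ∧ H G z e.2)

/-- `x` is a possible partner of the uncovered vertex `u`. -/
def GP (G : SimpleGraph V) (k : ℕ) (Z : Finset V) (M : Finset (V × V)) (u x : V) : Prop :=
  Allowed G k u x ∧ (∀ e ∈ M, ¬ Conf G (u, x) e) ∧ (∀ z ∈ Z, ¬ (H G z u ∧ H G z x))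

theorem good_subset {G : SimpleGraph V} {k : ℕ} {Z : Finset V} {M M' : Finset (V × V)}
    (hM : Good G k Z M) (h : M' ⊆ M) : Good G k Z M' :=
  ⟨fun e he => hM.allowed e (h he), fun e he e' he' hne => hM.dis e (h he) e' (h he') hne,
    fun e he e' he' hne => hM.noconf e (h he) e' (h he') hne, fun e he => hM.avoid e (h he),
    fun e he => hM.zcond e (h he)⟩

theorem good_insert {G : SimpleGraph V} {k : ℕ} {Z : Finset V} {M : Finset (V × V)}
    (hM : Good G k Z M) {p : V × V} (ha : Allowed G k p.1 p.2) (hZ : p.1 ∉ Z ∧ p.2 ∉ Z)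
    (hz : ∀ z ∈ Z, ¬ (H G z p.1 ∧ H G z p.2)) (hd : ∀ e ∈ M, Dis p e)
    (hc : ∀ e ∈ M, ¬ Conf G p e) : Good G k Z (insert p M) := by
  refine ⟨?_, ?_, ?_, ?_, ?_⟩
  · intro e he
    rcases mem_insert.mp he with rfl | he
    · exact ha
    · exact hM.allowed e he
  · intro e he e' he' hne
    rcases mem_insert.mp he with h1 | h1 <;> rcases mem_insert.mp he' with h2 | h2
    · exact absurd (h1.trans h2.symm) hne
    · rw [h1]
      exact hd e' h2
    · rw [h2]
      exact Dis_symm (hd e h1)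
    · exact hM.dis e h1 e' h2 hne
  · intro e he e' he' hne h
    rcases mem_insert.mp he with h1 | h1 <;> rcases mem_insert.mp he' with h2 | h2
    · exact hne (h1.trans h2.symm)
    · rw [h1] at h
      exact hc e' h2 h
    · rw [h2] at h
      exact hc e h1 (Conf_symm h)
    · exact hM.noconf e h1 e' h2 hne h
  · intro e he
    rcases mem_insert.mp he with rfl | he
    · exact hZ
    · exact hM.avoid e he
  · intro e he
    rcases mem_insert.mp he with rfl | he
    · exact hz
    · exact hM.zcond e he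

theorem card_big (G : SimpleGraph V) {d : ℕ} (k : ℕ) (hd : ∀ v, (N G v).card ≤ d) (u : V) :
    (k + 1) * (univ.filter (fun x => k < cod G u x)).card ≤ d * d := by
  have h1 : ∀ x, cod G u x = ∑ c ∈ N G u, if c ∈ N G x then 1 else 0 := by
    intro x
    unfold cod
    rw [← Finset.filter_mem_eq_inter, Finset.card_filter]
  have h2 : ∑ x : V, cod G u x = ∑ c ∈ N G u, (N G c).card := by
    simp_rw [h1]
    rw [Finset.sum_comm]
    refine Finset.sum_congr rfl (fun c _ => ?_)
    rw [← Finset.card_filter]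
    congr 1
    ext x
    simp only [mem_filter, mem_univ, true_and, mem_N]
    exact ⟨H_symm, H_symm⟩
  calc (k + 1) * (univ.filter (fun x => k < cod G u x)).card
      = ∑ _x ∈ univ.filter (fun x => k < cod G u x), (k + 1) := by simp [mul_comm]
    _ ≤ ∑ x ∈ univ.filter (fun x => k < cod G u x), cod G u x :=
        Finset.sum_le_sum (fun x hx => (mem_filter.mp hx).2)
    _ ≤ ∑ x : V, cod G u x :=
        Finset.sum_le_sum_of_subset (Finset.filter_subset _ _)
    _ = ∑ c ∈ N G u, (N G c).card := h2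
    _ ≤ ∑ _c ∈ N G u, d := Finset.sum_le_sum (fun c _ => hd c)
    _ = (N G u).card * d := by simp
    _ ≤ d * d := Nat.mul_le_mul_right _ (hd u)

theorem card_Mu {G : SimpleGraph V} {k d : ℕ} {Z : Finset V} {M Mu : Finset (V × V)}
    (hM : Good G k Z M) (hd : ∀ v, (N G v).card ≤ d) (u : V) (hsub : Mu ⊆ M)
    (hMu : ∀ e ∈ Mu, H G u e.1 ∧ H G u e.2) : 2 * Mu.card ≤ d := by
  have h1 : (Mu.image Prod.fst).card = Mu.card := by
    refine card_image_of_injOn ?_
    intro e he e' he' h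
    by_contra hne
    exact (hM.dis e (hsub he) e' (hsub he') hne).1 h
  have h2 : (Mu.image Prod.snd).card = Mu.card := by
    refine card_image_of_injOn ?_
    intro e he e' he' h
    by_contra hne
    exact (hM.dis e (hsub he) e' (hsub he') hne).2.2.2 h
  have h3 : Disjoint (Mu.image Prod.fst) (Mu.image Prod.snd) := by
    rw [Finset.disjoint_left]
    intro x hx hx'
    obtain ⟨e, he, rfl⟩ := mem_image.mp hx
    obtain ⟨e', he', h⟩ := mem_image.mp hx'
    by_cases hne : e = e'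
    · subst hne
      exact (hM.allowed e (hsub he)).1.ne h.symm
    · exact (hM.dis e (hsub he) e' (hsub he') hne).2.1 h.symm
  have h4 : Mu.image Prod.fst ∪ Mu.image Prod.snd ⊆ N G u := by
    intro x hx
    rcases mem_union.mp hx with hx | hx
    · obtain ⟨e, he, rfl⟩ := mem_image.mp hx
      exact mem_N.mpr (hMu e he).1
    · obtain ⟨e, he, rfl⟩ := mem_image.mp hx
      exact mem_N.mpr (hMu e he).2
  have h5 := card_le_card h4
  rw [card_union_of_disjoint h3, h1, h2] at h5
  have := hd u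
  omega

open Classical in
theorem card_bad {G : SimpleGraph V} {k d b : ℕ} {Z : Finset V} {M : Finset (V × V)}
    (hM : Good G k Z M) (hd : ∀ v, (N G v).card ≤ d) (hZ : Z.card ≤ 1)
    (hb : d * d ≤ (k + 1) * b) (u : V) :
    2 * (univ.filter (fun x => ¬ GP G k Z M u x)).card ≤ 2 + 4 * d + 2 * b + k * d := by
  set Big := univ.filter (fun x => k < cod G u x) with hBig
  set Mu := M.filter (fun e => H G u e.1 ∧ H G u e.2) with hMu
  set C := Mu.biUnion (fun e => N G e.1 ∩ N G e.2) with hC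
  set Zu := Z.filter (fun z => H G z u) with hZu
  set D := Zu.biUnion (fun z => N G z) with hD
  have hsub : univ.filter (fun x => ¬ GP G k Z M u x) ⊆ ({u} ∪ N G u) ∪ Big ∪ C ∪ D := by
    intro x hx
    have hx' := (mem_filter.mp hx).2
    by_cases h1 : G.Adj u x
    · by_cases h2 : cod G u x ≤ k
      · by_cases h3 : ∃ e ∈ M, Conf G (u, x) e
        · obtain ⟨e, he, hc⟩ := h3
          have hxC : x ∈ C := by
            refine mem_biUnion.mpr ⟨e, mem_filter.mpr ⟨he, hc.1, hc.2.1⟩, ?_⟩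
            exact mem_inter.mpr ⟨mem_N.mpr (H_symm hc.2.2.1), mem_N.mpr (H_symm hc.2.2.2)⟩
          simp [hxC]
        · have h3' : ∀ e ∈ M, ¬ Conf G (u, x) e := fun e he hc => h3 ⟨e, he, hc⟩
          have h4 : ∃ z ∈ Z, H G z u ∧ H G z x := by
            by_contra h4
            exact hx' ⟨⟨h1, h2⟩, h3', fun z hz hh => h4 ⟨z, hz, hh⟩⟩
          obtain ⟨z, hz, h5, h6⟩ := h4
          have hxD : x ∈ D :=
            mem_biUnion.mpr ⟨z, mem_filter.mpr ⟨hz, h5⟩, mem_N.mpr h6⟩
          simp [hxD]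
      · have hxB : x ∈ Big := mem_filter.mpr ⟨mem_univ _, by omega⟩
        simp [hxB]
    · by_cases h2 : x = u
      · simp [h2]
      · have hxN : x ∈ N G u := mem_N.mpr ⟨fun h => h2 h.symm, h1⟩
        simp [hxN]
  have hBigc : Big.card ≤ b := by
    have h := card_big G k hd u
    exact Nat.le_of_mul_le_mul_left (h.trans hb) (Nat.succ_pos k)
  have hMuc : 2 * Mu.card ≤ d :=
    card_Mu hM hd u (filter_subset _ _) (fun e he => (mem_filter.mp he).2)
  have hCc : C.card ≤ Mu.card * k := by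
    calc C.card ≤ ∑ e ∈ Mu, (N G e.1 ∩ N G e.2).card := card_biUnion_le
      _ ≤ ∑ _e ∈ Mu, k := Finset.sum_le_sum (fun e he => (hM.allowed e (mem_filter.mp he).1).2)
      _ = Mu.card * k := by simp
  have hDc : D.card ≤ d := by
    calc D.card ≤ ∑ z ∈ Zu, (N G z).card := card_biUnion_le
      _ ≤ ∑ _z ∈ Zu, d := Finset.sum_le_sum (fun z _ => hd z)
      _ = Zu.card * d := by simp
      _ ≤ 1 * d := Nat.mul_le_mul_right _ ((card_le_card (filter_subset _ _)).trans hZ)
      _ = d := one_mul d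
  have hS : (({u} ∪ N G u) ∪ Big ∪ C ∪ D).card ≤ 1 + d + Big.card + C.card + D.card := by
    refine (card_union_le _ _).trans (add_le_add_left ?_ _)
    refine (card_union_le _ _).trans (add_le_add_left ?_ _)
    refine (card_union_le _ _).trans (add_le_add_left ?_ _)
    refine (card_union_le _ _).trans (add_le_add_right ?_ _)
    simpa using hd u
  have h6 := card_le_card hsub
  have h7 : 2 * C.card ≤ k * d := by
    calc 2 * C.card ≤ 2 * (Mu.card * k) := Nat.mul_le_mul_left _ hCc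
      _ = (2 * Mu.card) * k := by ring
      _ ≤ d * k := Nat.mul_le_mul_right _ hMuc
      _ = k * d := by ring
  omega

theorem add_pair {G : SimpleGraph V} {k : ℕ} {Z : Finset V} {M : Finset (V × V)}
    (hM : Good G k Z M) {u x : V} (huZ : u ∉ Z) (hxZ : x ∉ Z) (hGP : GP G k Z M u x)
    (huD : ∀ e ∈ M, u ≠ e.1 ∧ u ≠ e.2) (hxD : ∀ e ∈ M, x ≠ e.1 ∧ x ≠ e.2) :
    ∃ M', Good G k Z M' ∧ M'.card = M.card + 1 := by
  refine ⟨insert (u, x) M, good_insert hM hGP.1 ⟨huZ, hxZ⟩ hGP.2.2 ?_ hGP.2.1, ?_⟩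
  · intro e he
    exact ⟨(huD e he).1, (huD e he).2, (hxD e he).1, (hxD e he).2⟩
  · refine card_insert_of_notMem ?_
    intro h
    exact (huD _ h).1 rfl

theorem swap_pair {G : SimpleGraph V} {k : ℕ} {Z : Finset V} {M : Finset (V × V)}
    (hM : Good G k Z M) {e : V × V} (he : e ∈ M) {x y : V}
    (hxy : (x = e.1 ∧ y = e.2) ∨ (x = e.2 ∧ y = e.1)) {u₁ u₂ : V} (hne : u₁ ≠ u₂)
    (hu₁Z : u₁ ∉ Z) (hu₂Z : u₂ ∉ Z) (hu₁D : ∀ e ∈ M, u₁ ≠ e.1 ∧ u₁ ≠ e.2)
    (hu₂D : ∀ e ∈ M, u₂ ≠ e.1 ∧ u₂ ≠ e.2) (h₁ : GP G k Z M u₁ x) (h₂ : GP G k Z M u₂ y) :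
    ∃ M', Good G k Z M' ∧ M'.card = M.card + 1 := by
  have hM₀ : Good G k Z (M.erase e) := good_subset hM (erase_subset _ _)
  have hav := hM.avoid e he
  have hadj0 := (hM.allowed e he).1
  have hxZ : x ∉ Z := by
    rcases hxy with ⟨rfl, -⟩ | ⟨rfl, -⟩
    · exact hav.1
    · exact hav.2
  have hyZ : y ∉ Z := by
    rcases hxy with ⟨-, rfl⟩ | ⟨-, rfl⟩
    · exact hav.2
    · exact hav.1
  have hadj : G.Adj x y := by
    rcases hxy with ⟨rfl, rfl⟩ | ⟨rfl, rfl⟩
    · exact hadj0
    · exact hadj0.symm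
  have hx : ∀ e' ∈ M.erase e, x ≠ e'.1 ∧ x ≠ e'.2 := by
    intro e' he'
    have hD := hM.dis e he e' (mem_of_mem_erase he') (ne_of_mem_erase he').symm
    rcases hxy with ⟨rfl, -⟩ | ⟨rfl, -⟩
    · exact ⟨hD.1, hD.2.1⟩
    · exact ⟨hD.2.2.1, hD.2.2.2⟩
  have hy : ∀ e' ∈ M.erase e, y ≠ e'.1 ∧ y ≠ e'.2 := by
    intro e' he'
    have hD := hM.dis e he e' (mem_of_mem_erase he') (ne_of_mem_erase he').symm
    rcases hxy with ⟨-, rfl⟩ | ⟨-, rfl⟩
    · exact ⟨hD.2.2.1, hD.2.2.2⟩
    · exact ⟨hD.1, hD.2.1⟩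
  have hu₁y : u₁ ≠ y := by
    rcases hxy with ⟨-, rfl⟩ | ⟨-, rfl⟩
    · exact (hu₁D e he).2
    · exact (hu₁D e he).1
  have hu₂x : u₂ ≠ x := by
    rcases hxy with ⟨rfl, -⟩ | ⟨rfl, -⟩
    · exact (hu₂D e he).1
    · exact (hu₂D e he).2
  have hM₁ : Good G k Z (insert (u₂, y) (M.erase e)) := by
    refine good_insert hM₀ h₂.1 ⟨hu₂Z, hyZ⟩ h₂.2.2 ?_ ?_
    · intro e' he'
      have h1 := hu₂D e' (mem_of_mem_erase he')
      exact ⟨h1.1, h1.2, (hy e' he').1, (hy e' he').2⟩
    · intro e' he'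
      exact h₂.2.1 e' (mem_of_mem_erase he')
  have hM₂ : Good G k Z (insert (u₁, x) (insert (u₂, y) (M.erase e))) := by
    refine good_insert hM₁ h₁.1 ⟨hu₁Z, hxZ⟩ h₁.2.2 ?_ ?_
    · intro e' he'
      rcases mem_insert.mp he' with rfl | he'
      · exact ⟨hne, hu₁y, hu₂x.symm, hadj.ne⟩
      · have h1 := hu₁D e' (mem_of_mem_erase he')
        exact ⟨h1.1, h1.2, (hx e' he').1, (hx e' he').2⟩
    · intro e' he'
      rcases mem_insert.mp he' with rfl | he'
      · intro hc
        exact hc.2.2.2.2 hadj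
      · exact h₁.2.1 e' (mem_of_mem_erase he')
  refine ⟨_, hM₂, ?_⟩
  have hn₂ : (u₂, y) ∉ M.erase e := by
    intro h
    exact (hu₂D _ (mem_of_mem_erase h)).1 rfl
  have hn₁ : (u₁, x) ∉ insert (u₂, y) (M.erase e) := by
    intro h
    rcases mem_insert.mp h with h | h
    · exact hne (congrArg Prod.fst h)
    · exact (hu₁D _ (mem_of_mem_erase h)).1 rfl
  rw [card_insert_of_notMem hn₁, card_insert_of_notMem hn₂, card_erase_of_mem he]
  have := card_pos.mpr ⟨e, he⟩
  omega

open Classical in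
theorem step {G : SimpleGraph V} {k d b t : ℕ} {Z : Finset V} {M : Finset (V × V)}
    (hM : Good G k Z M) (hd : ∀ v, (N G v).card ≤ d) (hZ : Z.card ≤ 1)
    (hb : d * d ≤ (k + 1) * b) (hW : (univ \ Z).card = 2 * t)
    (hbad : 2 + 4 * d + 2 * b + k * d ≤ 2 * t) (hr : M.card < t) :
    ∃ M', Good G k Z M' ∧ M'.card = M.card + 1 := by
  set W := univ \ Z with hWdef
  set X := M.image Prod.fst ∪ M.image Prod.snd with hX
  have hXc : X.card ≤ 2 * M.card := by
    calc X.card ≤ (M.image Prod.fst).card + (M.image Prod.snd).card := card_union_le _ _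
      _ ≤ M.card + M.card := add_le_add card_image_le card_image_le
      _ = 2 * M.card := by ring
  have hU : 1 < (W \ X).card := by
    have := le_card_sdiff X W
    omega
  obtain ⟨u₁, hu₁, u₂, hu₂, hne⟩ := one_lt_card.mp hU
  obtain ⟨hu₁W, hu₁X⟩ := mem_sdiff.mp hu₁
  obtain ⟨hu₂W, hu₂X⟩ := mem_sdiff.mp hu₂
  have hnZ : ∀ x, x ∈ W → x ∉ Z := fun x hx => (mem_sdiff.mp hx).2
  have hnotX : ∀ u, u ∉ X → ∀ e ∈ M, u ≠ e.1 ∧ u ≠ e.2 := by
    intro u hu e he
    constructor
    · rintro rfl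
      exact hu (mem_union_left _ (mem_image_of_mem _ he))
    · rintro rfl
      exact hu (mem_union_right _ (mem_image_of_mem _ he))
  have hP : ∀ u, t ≤ (W.filter (fun x => GP G k Z M u x)).card := by
    intro u
    have h1 := card_bad hM hd hZ hb u
    have h2 : (W.filter (fun x => ¬ GP G k Z M u x)).card ≤
        (univ.filter (fun x => ¬ GP G k Z M u x)).card :=
      card_le_card (filter_subset_filter _ (subset_univ _))
    have h3 := card_filter_add_card_filter_not (s := W) (fun x => GP G k Z M u x)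
    omega
  by_cases h1 : ∃ x ∈ W.filter (fun x => GP G k Z M u₁ x), x ∉ X
  · obtain ⟨x, hx, hxX⟩ := h1
    obtain ⟨hxW, hxG⟩ := mem_filter.mp hx
    exact add_pair hM (hnZ _ hu₁W) (hnZ _ hxW) hxG (hnotX _ hu₁X) (hnotX _ hxX)
  by_cases h2 : ∃ x ∈ W.filter (fun x => GP G k Z M u₂ x), x ∉ X
  · obtain ⟨x, hx, hxX⟩ := h2
    obtain ⟨hxW, hxG⟩ := mem_filter.mp hx
    exact add_pair hM (hnZ _ hu₂W) (hnZ _ hxW) hxG (hnotX _ hu₂X) (hnotX _ hxX)
  set P₁ := W.filter (fun x => GP G k Z M u₁ x) with hP₁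
  set P₂ := W.filter (fun x => GP G k Z M u₂ x) with hP₂
  have hP₁X : ∀ x ∈ P₁, x ∈ X := fun x hx => by
    by_contra h
    exact h1 ⟨x, hx, h⟩
  have hP₂X : ∀ x ∈ P₂, x ∈ X := fun x hx => by
    by_contra h
    exact h2 ⟨x, hx, h⟩
  have key : ∃ e ∈ M, (e.1 ∈ P₁ ∧ e.2 ∈ P₂) ∨ (e.2 ∈ P₁ ∧ e.1 ∈ P₂) := by
    by_contra hno
    have hno' : ∀ e ∈ M, ¬ (e.1 ∈ P₁ ∧ e.2 ∈ P₂) ∧ ¬ (e.2 ∈ P₁ ∧ e.1 ∈ P₂) := by
      intro e he
      constructor
      · intro h
        exact hno ⟨e, he, Or.inl h⟩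
      · intro h
        exact hno ⟨e, he, Or.inr h⟩
    set A₁ := M.filter (fun e => e.1 ∈ P₁) with hA₁
    set A₂ := M.filter (fun e => e.2 ∈ P₁) with hA₂
    set B₁ := M.filter (fun e => e.1 ∈ P₂) with hB₁
    set B₂ := M.filter (fun e => e.2 ∈ P₂) with hB₂
    have c1 : P₁.card ≤ A₁.card + A₂.card := by
      have hs : P₁ ⊆ A₁.image Prod.fst ∪ A₂.image Prod.snd := by
        intro x hx
        rcases mem_union.mp (hP₁X x hx) with h | h
        · obtain ⟨e, he, rfl⟩ := mem_image.mp h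
          exact mem_union_left _ (mem_image_of_mem _ (mem_filter.mpr ⟨he, hx⟩))
        · obtain ⟨e, he, rfl⟩ := mem_image.mp h
          exact mem_union_right _ (mem_image_of_mem _ (mem_filter.mpr ⟨he, hx⟩))
      exact (card_le_card hs).trans
        ((card_union_le _ _).trans (add_le_add card_image_le card_image_le))
    have c2 : P₂.card ≤ B₁.card + B₂.card := by
      have hs : P₂ ⊆ B₁.image Prod.fst ∪ B₂.image Prod.snd := by
        intro x hx
        rcases mem_union.mp (hP₂X x hx) with h | h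
        · obtain ⟨e, he, rfl⟩ := mem_image.mp h
          exact mem_union_left _ (mem_image_of_mem _ (mem_filter.mpr ⟨he, hx⟩))
        · obtain ⟨e, he, rfl⟩ := mem_image.mp h
          exact mem_union_right _ (mem_image_of_mem _ (mem_filter.mpr ⟨he, hx⟩))
      exact (card_le_card hs).trans
        ((card_union_le _ _).trans (add_le_add card_image_le card_image_le))
    have c3 : A₁.card + B₂.card ≤ M.card := by
      have hdis : Disjoint A₁ B₂ := by
        rw [Finset.disjoint_left]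
        intro e he he'
        exact (hno' e (mem_filter.mp he).1).1 ⟨(mem_filter.mp he).2, (mem_filter.mp he').2⟩
      rw [← card_union_of_disjoint hdis]
      exact card_le_card (union_subset (filter_subset _ _) (filter_subset _ _))
    have c4 : A₂.card + B₁.card ≤ M.card := by
      have hdis : Disjoint A₂ B₁ := by
        rw [Finset.disjoint_left]
        intro e he he'
        exact (hno' e (mem_filter.mp he).1).2 ⟨(mem_filter.mp he).2, (mem_filter.mp he').2⟩
      rw [← card_union_of_disjoint hdis]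
      exact card_le_card (union_subset (filter_subset _ _) (filter_subset _ _))
    have c5 : t ≤ P₁.card := hP u₁
    have c6 : t ≤ P₂.card := hP u₂
    omega
  obtain ⟨e, he, h⟩ := key
  rcases h with ⟨hx, hy⟩ | ⟨hx, hy⟩
  · exact swap_pair hM he (Or.inl ⟨rfl, rfl⟩) hne (hnZ _ hu₁W) (hnZ _ hu₂W) (hnotX _ hu₁X)
      (hnotX _ hu₂X) (mem_filter.mp hx).2 (mem_filter.mp hy).2
  · exact swap_pair hM he (Or.inr ⟨rfl, rfl⟩) hne (hnZ _ hu₁W) (hnZ _ hu₂W) (hnotX _ hu₁X)
      (hnotX _ hu₂X) (mem_filter.mp hx).2 (mem_filter.mp hy).2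

theorem exists_good {G : SimpleGraph V} {k d b t : ℕ} {Z : Finset V}
    (hd : ∀ v, (N G v).card ≤ d) (hZ : Z.card ≤ 1)
    (hb : d * d ≤ (k + 1) * b) (hW : (univ \ Z).card = 2 * t)
    (hbad : 2 + 4 * d + 2 * b + k * d ≤ 2 * t) :
    ∀ r, r ≤ t → ∃ M, Good G k Z M ∧ M.card = r := by
  intro r
  induction r with
  | zero =>
    intro _
    refine ⟨∅, ⟨?_, ?_, ?_, ?_, ?_⟩, rfl⟩ <;> simp
  | succ r ih =>
    intro hr
    obtain ⟨M, hM, hc⟩ := ih (by omega)
    obtain ⟨M', hM', hc'⟩ := step hM hd hZ hb hW hbad (by omega)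
    exact ⟨M', hM', by omega⟩

/-- `B` is the family of branch sets of a complete minor of `G`: nonempty connected pairwise
disjoint sets with an edge of `G` between any two of them. -/
def IsCompleteMinorModel (G : SimpleGraph V) (B : Finset (Finset V)) : Prop :=
  (∀ A ∈ B, A.Nonempty ∧ (G.induce (A : Set V)).Connected) ∧
    (∀ A ∈ B, ∀ A' ∈ B, A ≠ A' → Disjoint A A' ∧ ∃ x ∈ A, ∃ y ∈ A', G.Adj x y)

theorem pair_connected (G : SimpleGraph V) {a b : V} (h : G.Adj a b) :
    (G.induce ((({a, b} : Finset V)) : Set V)).Connected := by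
  have ha : a ∈ ((({a, b} : Finset V)) : Set V) := by simp
  have hb : b ∈ ((({a, b} : Finset V)) : Set V) := by simp
  haveI : Nonempty ((({a, b} : Finset V)) : Set V) := ⟨⟨a, ha⟩⟩
  have hab : (G.induce ((({a, b} : Finset V)) : Set V)).Adj ⟨a, ha⟩ ⟨b, hb⟩ := by
    simpa using h
  have key : ∀ x : ((({a, b} : Finset V)) : Set V),
      (G.induce ((({a, b} : Finset V)) : Set V)).Reachable x ⟨a, ha⟩ := by
    rintro ⟨x, hx⟩
    have hx' : x = a ∨ x = b := by simpa using hx
    rcases hx' with rfl | rfl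
    · exact SimpleGraph.Reachable.refl _
    · exact hab.reachable.symm
  exact SimpleGraph.Connected.mk (fun x y => (key x).trans (key y).symm)

theorem single_connected (G : SimpleGraph V) (z : V) :
    (G.induce ((({z} : Finset V)) : Set V)).Connected := by
  have ha : z ∈ ((({z} : Finset V)) : Set V) := by simp
  haveI : Nonempty ((({z} : Finset V)) : Set V) := ⟨⟨z, ha⟩⟩
  have key : ∀ x : ((({z} : Finset V)) : Set V),
      (G.induce ((({z} : Finset V)) : Set V)).Reachable x ⟨z, ha⟩ := by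
    rintro ⟨x, hx⟩
    have hx' : x = z := by simpa using hx
    subst hx'
    exact SimpleGraph.Reachable.refl _
  exact SimpleGraph.Connected.mk (fun x y => (key x).trans (key y).symm)

theorem pair_single {G : SimpleGraph V} {k : ℕ} {Z : Finset V} {M : Finset (V × V)}
    (hM : Good G k Z M) {e : V × V} (he : e ∈ M) {z : V} (hz : z ∈ Z) :
    Disjoint ({e.1, e.2} : Finset V) ({z} : Finset V) ∧
      ∃ x ∈ ({e.1, e.2} : Finset V), ∃ y ∈ ({z} : Finset V), G.Adj x y := by
  have hav := hM.avoid e he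
  have h1 : e.1 ≠ z := fun h => hav.1 (h ▸ hz)
  have h2 : e.2 ≠ z := fun h => hav.2 (h ▸ hz)
  constructor
  · rw [Finset.disjoint_left]
    intro x hx hx'
    have hxz : x = z := mem_singleton.mp hx'
    rcases mem_insert.mp hx with h | h
    · exact h1 (h.symm.trans hxz)
    · exact h2 ((mem_singleton.mp h).symm.trans hxz)
  · by_contra hno
    have hn1 : ¬ G.Adj z e.1 := fun h =>
      hno ⟨e.1, by simp, z, by simp, h.symm⟩
    have hn2 : ¬ G.Adj z e.2 := fun h =>
      hno ⟨e.2, by simp, z, by simp, h.symm⟩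
    exact hM.zcond e he z hz ⟨⟨h1.symm, hn1⟩, ⟨h2.symm, hn2⟩⟩

theorem model_of_good {G : SimpleGraph V} {k : ℕ} {Z : Finset V} {M : Finset (V × V)}
    (hM : Good G k Z M) (hZ : Z.card ≤ 1) :
    ∃ B : Finset (Finset V), B.card = M.card + Z.card ∧ IsCompleteMinorModel G B := by
  classical
  have hinj1 : Set.InjOn (fun e : V × V => ({e.1, e.2} : Finset V)) (M : Set (V × V)) := by
    intro e he e' he' h
    by_contra hne
    have hD := hM.dis e he e' he' hne
    have h1 : e.1 ∈ ({e'.1, e'.2} : Finset V) := by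
      have : e.1 ∈ ({e.1, e.2} : Finset V) := by simp
      rwa [show ({e.1, e.2} : Finset V) = {e'.1, e'.2} from h] at this
    simp [hD.1, hD.2.1] at h1
  have hinj2 : Set.InjOn (fun z : V => ({z} : Finset V)) (Z : Set V) := by
    intro z _ z' _ h
    simpa using h
  have hdisj : Disjoint (M.image (fun e : V × V => ({e.1, e.2} : Finset V)))
      (Z.image (fun z : V => ({z} : Finset V))) := by
    rw [Finset.disjoint_left]
    intro A hA hA'
    obtain ⟨e, he, rfl⟩ := mem_image.mp hA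
    obtain ⟨z, hz, h⟩ := mem_image.mp hA'
    have h1 : e.1 ∈ ({z} : Finset V) := by
      rw [h]
      simp
    exact (hM.avoid e he).1 ((mem_singleton.mp h1) ▸ hz)
  refine ⟨M.image (fun e : V × V => ({e.1, e.2} : Finset V)) ∪
    Z.image (fun z : V => ({z} : Finset V)), ?_, ?_, ?_⟩
  · rw [card_union_of_disjoint hdisj, card_image_of_injOn hinj1, card_image_of_injOn hinj2]
  · intro A hA
    rcases mem_union.mp hA with hA | hA
    · obtain ⟨e, he, rfl⟩ := mem_image.mp hA
      exact ⟨⟨e.1, by simp⟩, pair_connected G (hM.allowed e he).1⟩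
    · obtain ⟨z, _, rfl⟩ := mem_image.mp hA
      exact ⟨⟨z, by simp⟩, single_connected G z⟩
  · intro A hA A' hA' hne
    rcases mem_union.mp hA with hA | hA <;> rcases mem_union.mp hA' with hA' | hA'
    · obtain ⟨e, he, rfl⟩ := mem_image.mp hA
      obtain ⟨e', he', rfl⟩ := mem_image.mp hA'
      have hee : e ≠ e' := by
        rintro rfl
        exact hne rfl
      have hD := hM.dis e he e' he' hee
      constructor
      · rw [Finset.disjoint_left]
        intro x hx hx'
        rcases mem_insert.mp hx with h | h <;> rcases mem_insert.mp hx' with h' | h'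
        · exact hD.1 (h.symm.trans h')
        · exact hD.2.1 (h.symm.trans (mem_singleton.mp h'))
        · exact hD.2.2.1 ((mem_singleton.mp h).symm.trans h')
        · exact hD.2.2.2 ((mem_singleton.mp h).symm.trans (mem_singleton.mp h'))
      · by_contra hno
        have n1 : ¬ G.Adj e.1 e'.1 := fun h => hno ⟨e.1, by simp, e'.1, by simp, h⟩
        have n2 : ¬ G.Adj e.1 e'.2 := fun h => hno ⟨e.1, by simp, e'.2, by simp, h⟩
        have n3 : ¬ G.Adj e.2 e'.1 := fun h => hno ⟨e.2, by simp, e'.1, by simp, h⟩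
        have n4 : ¬ G.Adj e.2 e'.2 := fun h => hno ⟨e.2, by simp, e'.2, by simp, h⟩
        exact hM.noconf e he e' he' hee
          ⟨⟨hD.1, n1⟩, ⟨hD.2.1, n2⟩, ⟨hD.2.2.1, n3⟩, ⟨hD.2.2.2, n4⟩⟩
    · obtain ⟨e, he, rfl⟩ := mem_image.mp hA
      obtain ⟨z, hz, rfl⟩ := mem_image.mp hA'
      exact pair_single hM he hz
    · obtain ⟨z, hz, rfl⟩ := mem_image.mp hA
      obtain ⟨e, he, rfl⟩ := mem_image.mp hA'
      obtain ⟨h1, x, hx, y, hy, hxy⟩ := pair_single hM he hz
      exact ⟨h1.symm, y, hy, x, hx, hxy.symm⟩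
    · obtain ⟨z, hz, rfl⟩ := mem_image.mp hA
      obtain ⟨z', hz', rfl⟩ := mem_image.mp hA'
      exact absurd (by rw [card_le_one.mp hZ z hz z' hz']) hne

theorem arith {d m : ℕ} (hd1 : 1 ≤ d) (hm : 121 * d ^ 3 ≤ m ^ 2) :
    4 + 5 * d + 2 * (Nat.sqrt (2 * d) * d) ≤ m := by
  set s := Nat.sqrt (2 * d) with hs
  have hs2 : s * s ≤ 2 * d := Nat.sqrt_le (2 * d)
  have hsd : s ≤ d := by
    by_contra h
    have h' : d + 1 ≤ s := by omega
    have : (d + 1) * (d + 1) ≤ s * s := Nat.mul_le_mul h' h'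
    nlinarith
  by_contra hlt
  have hlt' : m < 4 + 5 * d + 2 * (s * d) := by omega
  have h1 : m ^ 2 < (4 + 5 * d + 2 * (s * d)) ^ 2 := Nat.pow_lt_pow_left hlt' (by norm_num)
  have h2 : 4 + 5 * d + 2 * (s * d) ≤ d * (9 + 2 * s) := by nlinarith
  have h3 : (4 + 5 * d + 2 * (s * d)) ^ 2 ≤ (d * (9 + 2 * s)) ^ 2 := Nat.pow_le_pow_left h2 2
  have h4 : (9 + 2 * s) ^ 2 ≤ 121 * d := by
    rcases Nat.lt_or_ge d 2 with hd2 | hd2
    · have hd' : d = 1 := by omega
      subst hd'
      have hs1 : s ≤ 1 := hsd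
      interval_cases s <;> norm_num
    · nlinarith
  have h5 : (d * (9 + 2 * s)) ^ 2 ≤ 121 * d ^ 3 := by
    calc (d * (9 + 2 * s)) ^ 2 = d ^ 2 * (9 + 2 * s) ^ 2 := by ring
      _ ≤ d ^ 2 * (121 * d) := Nat.mul_le_mul_left _ h4
      _ = 121 * d ^ 3 := by ring
  omega

/-- **Complete minors in graphs with few non-neighbours.**  If each vertex of the `m`-vertex graph
`G` has at most `d` non-neighbours (`d ≥ 1`) and `121 d^3 ≤ m^2`, then `G` has a complete minor with
`⌈m/2⌉` branch sets. -/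
theorem result (G : SimpleGraph V) [DecidableRel G.Adj] (d : ℕ) (hd1 : 1 ≤ d)
    (hd : ∀ v : V, (univ.filter (fun w => w ≠ v ∧ ¬ G.Adj v w)).card ≤ d)
    (hm : 121 * d ^ 3 ≤ Fintype.card V ^ 2) :
    ∃ B : Finset (Finset V), B.card = (Fintype.card V + 1) / 2 ∧ IsCompleteMinorModel G B := by
  classical
  have hN : ∀ v, (N G v).card ≤ d := by
    intro v
    refine (card_le_card ?_).trans (hd v)
    intro w hw
    have h := mem_N.mp hw
    exact mem_filter.mpr ⟨mem_univ _, h.1.symm, h.2⟩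
  set m := Fintype.card V with hmdef
  have harith := arith hd1 hm
  set k := Nat.sqrt (2 * d) with hk
  set b := (d * (k + 1) + 1) / 2 with hbdef
  have hb1 : d * (k + 1) ≤ 2 * b := by omega
  have hb2 : 2 * b ≤ d * (k + 1) + 1 := by omega
  have hsq : 2 * d < (k + 1) * (k + 1) := by
    have := Nat.lt_succ_sqrt (2 * d)
    simpa [Nat.succ_eq_add_one] using this
  have hb : d * d ≤ (k + 1) * b := by
    have h1 : 2 * (d * d) ≤ 2 * ((k + 1) * b) := by
      calc 2 * (d * d) = d * (2 * d) := by ring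
        _ ≤ d * ((k + 1) * (k + 1)) := Nat.mul_le_mul_left _ hsq.le
        _ = (k + 1) * (d * (k + 1)) := by ring
        _ ≤ (k + 1) * (2 * b) := Nat.mul_le_mul_left _ hb1
        _ = 2 * ((k + 1) * b) := by ring
    omega
  have hbad' : 3 + 5 * d + 2 * (k * d) ≥ 2 + 4 * d + 2 * b + k * d := by
    have : d * (k + 1) = k * d + d := by ring
    omega
  rcases Nat.even_or_odd' m with ⟨t, ht | ht⟩
  · -- even order
    have hW : (univ \ (∅ : Finset V)).card = 2 * t := by simp [← hmdef, ht]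
    have hbad : 2 + 4 * d + 2 * b + k * d ≤ 2 * t := by omega
    obtain ⟨M, hM, hc⟩ := exists_good (G := G) hN (by simp) hb hW hbad t le_rfl
    obtain ⟨B, hB, hB'⟩ := model_of_good hM (by simp)
    refine ⟨B, ?_, hB'⟩
    rw [hB, hc, ht]
    simp
    omega
  · -- odd order
    have hpos : 0 < Fintype.card V := by omega
    obtain ⟨z⟩ := Fintype.card_pos_iff.mp hpos
    have hW : (univ \ ({z} : Finset V)).card = 2 * t := by
      rw [card_sdiff_of_subset (subset_univ _)]
      simp [← hmdef, ht]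
    have hbad : 2 + 4 * d + 2 * b + k * d ≤ 2 * t := by omega
    obtain ⟨M, hM, hc⟩ := exists_good (G := G) hN (by simp) hb hW hbad t le_rfl
    obtain ⟨B, hB, hB'⟩ := model_of_good hM (by simp)
    refine ⟨B, ?_, hB'⟩
    rw [hB, hc, ht]
    simp
    omega

end Vale.Agent.Results.P060.A_dense_minor
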